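import Vale.Agent.P022G.Obs.Main

/-!
# P022S, the cohomological input for the trivial representation
-/

set_option linter.all false

noncomputable section

namespace Vale.Agent.P022S.Koch

open NumberField
open Vale.Agent.P022 Vale.Agent.P022.H443
open Vale.Agent.P027M.S (Inert mx)
open Vale.Agent.P022D.Sel (M2 IsDec)
open Vale.Agent.P022E.GW
open Vale.Agent.P022G Vale.Agent.P022G.Obs
open Vale.Agent.P022G.Pres (Zc Bd Cb0 COH)

variable {F : Type} [Field F] [CharP F 2] {ρ : GQ →* GL (Fin 2) F} {T : Finset ℕ}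
  {z : GQ → GQ → M2 F}

theorem ker_top (h1 : ∀ g, ρ g = 1) : ρ.ker = ⊤ := eq_top_iff.2 fun g _ => h1 g

theorem dz (h1 : ∀ g, ρ g = 1) : Dz ρ ⊤ :=
  ⟨fun g _ => by simp [mx, h1], fun g h => absurd trivial h, by simp [h1]⟩

theorem cb_of (h1 : ∀ g, ρ g = 1) {D : Subgroup GQ} (h : Cb0 ρ D z) (i j : Fin 2) :
    Cb (⊤ ⊓ D) (en i j z) := by
  obtain ⟨e, ⟨-, he⟩, hl⟩ := h
  refine ⟨fun x => e x i j, (hl.comp fun m => m i j).comp_continuous (Gy.inc_cont inf_le_right),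
    fun x y => ?_⟩
  have := he x x.2.2 y y.2.2
  rw [← ac_def, ac_ker _ (h1 _)] at this
  exact congrFun (congrFun this i) j

/-- one entry -/
theorem one (hS : SC2) [Finite F] (h1 : ∀ g, ρ g = 1) (hz : Zc ρ T z) (h0 : 0 ∈ T)
    {D : ℕ → Subgroup GQ} (hD : ∀ l ∈ T, l ≠ 2 → IsDec l (D l : Set GQ)) (i j : Fin 2)
    (s : ∀ l ∈ T, l ≠ 2 → Cb (⊤ ⊓ D l) (en i j z)) : Cb ⊤ (en i j z) := by
  have k : ∀ V : Subgroup GQ, Z2 V (en i j z) := fun V => z2K hz (fun g _ => h1 g) i j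
  refine hS F _ (k ⊤) fun l l2 D' h => ?_
  by_cases hl : l ∈ T
  · obtain ⟨g, hg⟩ := Lb.dec_cj (hD l hl l2) h
    refine cj F ⊤ (D l) D' g _ trivial (fun x => ?_) (k ⊤) (s l hl l2)
    have := hg (g * x * g⁻¹)
    rw [show g⁻¹ * (g * x * g⁻¹) * g = x by group] at this
    exact this.symm
  · exact off hz h0 isOpen_univ hl h (k _)

/-- **the cohomological input**: three conditions for every odd prime without local lifts -/
theorem cohS (hS : SC2) [Finite F] (h1 : ∀ g, ρ g = 1) (fT : FX ⊤ T) (h0 : 0 ∈ T)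
    {B : Finset ℕ} (b0 : 0 ∈ B) {D : ℕ → Subgroup GQ}
    (hD : ∀ l ∈ T, l ≠ 2 → IsDec l (D l : Set GQ)) {DD : Set (Subgroup GQ)}
    (hB : ∀ l ∈ T, l ≠ 2 → l ∈ B → D l ∈ DD) {N : ℕ} (hN : 3 * ((T \ B).erase 2).card ≤ N) :
    COH ρ T DD N := by
  have ne : ∀ l ∈ T \ B, l ≠ 0 := fun l hl e => (Finset.mem_sdiff.1 hl).2 (e ▸ b0)
  choose I i0 i1 i2 using fun l : ((T \ B).erase 2 : Finset ℕ) => ex_I F (V := ⊤) isOpen_univ
    (ne l (Finset.mem_erase.1 l.2).2)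
    (hD l (Finset.mem_sdiff.1 (Finset.mem_erase.1 l.2).2).1 (Finset.mem_erase.1 l.2).1)
  let a : Fin 3 → Fin 2 := ![0, 0, 1]
  let b : Fin 3 → Fin 2 := ![0, 1, 0]
  refine coh_of (κ := Fin 3 × ((T \ B).erase 2 : Finset ℕ)) ?_
    (fun p => I p.2 ∘ₗ en (a p.1) (b p.1)) fun z hz hc k => ?_
  · rwa [Fintype.card_prod, Fintype.card_fin, Fintype.card_coe]
  have c : ∀ u : Fin 3, Cb ⊤ (en (a u) (b u) z) := fun u =>
    one hS h1 hz h0 hD _ _ fun l hl l2 => by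
      by_cases m : l ∈ B
      · exact cb_of h1 (hc _ (hB l hl l2 m)) _ _
      · exact i1 ⟨l, Finset.mem_erase.2 ⟨l2, Finset.mem_sdiff.2 ⟨hl, m⟩⟩⟩ _
          (z2K hz (fun g _ => h1 g) _ _) (k (u, _))
  have e := ker_top h1
  exact glob (dz h1) hz (e ▸ fT) fT (e ▸ c 1) (e ▸ c 2) (c 0)

end Vale.Agent.P022S.Koch
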