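import Vale.Agent.P022G.Pres.Uni
import Vale.Agent.P022G.Kdel
import Vale.Agent.P022G.Limk
import Vale.Agent.P022D.L2.Rel
import Vale.Agent.P022D.CA.Cpl
import Vale.Agent.P022S.Frk

/-!
# P022S: universal matrices as limits of words
-/

set_option linter.all false

noncomputable section

namespace Vale.Agent.P022S.Koch

open IsLocalRing Filter
open Vale.Agent.P022 Vale.Agent.P022G.Pres
open Vale.Agent.P027M.S (Inert mx)
open Vale.Agent.P022D.Sel (M2)
open Vale.Agent.P022D.PA (Base Cv)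

theorem two_pow {A : Type} [CommRing A] (m : Ideal A) (h2 : (2 : A) ∈ m) (M : M2 A)
    (hM : ∀ a b, (M - 1 : M2 A) a b ∈ m) (k : ℕ) :
    ∀ a b, (M ^ 2 ^ k - 1 : M2 A) a b ∈ m ^ (k + 1) := by
  induction k with
  | zero => simpa using hM
  | succ k ih =>
    intro a b
    have e : M ^ 2 ^ (k + 1) - 1 =
        (M ^ 2 ^ k - 1) * (M ^ 2 ^ k - 1) + (2 : A) • (M ^ 2 ^ k - 1) := by
      rw [pow_succ, pow_mul, two_smul]
      noncomm_ring
    rw [e, Matrix.add_apply, Matrix.smul_apply, Matrix.mul_apply, pow_succ' m (k + 1)]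
    refine add_mem (Ideal.sum_mem _ fun c _ => Ideal.mul_mem_mul ?_ (ih c b))
      (Ideal.mul_mem_mul h2 (ih a b))
    exact Ideal.pow_le_self (Nat.succ_ne_zero k) (ih a c)

/-- the image of a local map is closed -/
theorem cl_range {A P : Type} [CommRing A] [Base A] [CommRing P] [IsLocalRing P]
    [IsNoetherianRing P] (φ : A →+* P) (hφ : ∀ x ∈ maximalIdeal A, φ x ∈ maximalIdeal P) (x : P)
    (h : ∀ k : ℕ, ∃ y ∈ φ.range, y - x ∈ maximalIdeal P ^ k) : x ∈ φ.range := by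
  choose y hy h using h
  choose a ha using hy
  obtain ⟨b, hb⟩ := P022D.PA.lim A (hyperfilter ℕ) a
  refine ⟨b, sub_eq_zero.1 (Ideal.mem_bot.1 (P022D.PA.mem_of_sup ⊥ _ fun j => ?_))⟩
  obtain ⟨n, h1, h2⟩ := ((_root_.P022G.Lk.cv_map φ hφ _ hb j).and
    (Nat.hyperfilter_le_atTop (eventually_ge_atTop j))).exists
  have := sub_mem (Ideal.pow_le_pow_right h2 (h n)) h1
  simp only [ha n, sub_sub_sub_cancel_left] at this
  exact Ideal.mem_sup_right this

variable {O F ι : Type} [CommRing O] [Field F] {S : Dt O F ι} [IsLocalRing O]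

theorem zu (hS : S.Ok) (i : ι) : IsUnit (S.Z i) := by
  rw [Matrix.isUnit_iff_isUnit_det, ← notMem_maximalIdeal, ← hS.max, RingHom.map_det,
    RingHom.mapMatrix_apply, hS.Z]
  exact ((Matrix.isUnit_iff_isUnit_det _).1 (S.rb _).isUnit).ne_zero

/-- the words in the universal matrices -/
def wz (hS : S.Ok) : FreeGroup ι →* M2 (PP O ι) :=
  (Units.coeHom _).comp (FreeGroup.lift fun i => (zu hS i).unit)

theorem wz_of (hS : S.Ok) (i : ι) : wz hS (FreeGroup.of i) = S.Z i := by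
  rw [wz, MonoidHom.comp_apply, FreeGroup.lift_apply_of]; rfl

theorem adm_w (hS : S.Ok) {A : Type} [CommRing A] {φ : PP O ι →+* A} {ρ : GQ →* M2 A}
    (h : Adm S φ ρ) (w : FreeGroup ι) : ρ (FreeGroup.lift S.gam w) = (wz hS w).map φ :=
  DFunLike.congr_fun (FreeGroup.ext_hom (ρ.comp (FreeGroup.lift S.gam)) (pm φ (wz hS)) fun i => by
    rw [MonoidHom.comp_apply, FreeGroup.lift_apply_of, pm_apply, wz_of, h.gen]) w

theorem adm_two [CharP F 2] (hS : S.Ok) (h1 : ∀ g, S.rb g = 1) {A : Type} [CommRing A]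
    {φ : PP O ι →+* A} {ρ : GQ →* M2 A} {k : ℕ}
    (hk : maximalIdeal (PP O ι) ^ k ≤ RingHom.ker φ) (h : Adm S φ ρ) (g : GQ) :
    ρ g ^ 2 ^ k = 1 := by
  refine Matrix.ext fun a b => sub_eq_zero.1 ?_
  have h2 : (2 : A) ∈ (maximalIdeal (PP O ι)).map φ := by
    rw [← map_ofNat φ 2]
    refine Ideal.mem_map_of_mem _ (hS.max.1 ?_)
    rw [map_ofNat]
    exact CharTwo.two_eq_zero
  have := two_pow _ h2 (ρ g) (fun a b => by
    obtain ⟨p, e1, e2⟩ := h.res g a b
    have e : (ρ g - 1 : M2 A) a b = φ (p - (1 : M2 (PP O ι)) a b) := by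
      rw [Matrix.sub_apply, map_sub, e1, Matrix.one_apply, Matrix.one_apply]
      split_ifs <;> simp
    rw [e]
    refine Ideal.mem_map_of_mem _ (hS.max.1 ?_)
    rw [map_sub, e2, mx, h1, Units.val_one, Matrix.one_apply, Matrix.one_apply]
    split_ifs <;> simp) k a b
  rwa [pow_succ, ← Ideal.map_pow, (Ideal.map_eq_bot_iff_le_ker φ).2 hk, Ideal.bot_mul,
    Ideal.mem_bot] at this

/-- every value is the value of a word -/
theorem adm_gen [CharP F 2] (hS : S.Ok) (h1 : ∀ g, S.rb g = 1) {A : Type} [CommRing A] [Finite A]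
    {φ : PP O ι →+* A} {ρ : GQ →* M2 A} {k : ℕ}
    (hk : maximalIdeal (PP O ι) ^ k ≤ RingHom.ker φ) (h : Adm S φ ρ) (g : GQ) :
    ∃ w, ρ g = ρ (FreeGroup.lift S.gam w) := by
  classical
  let f := ρ.toHomUnits.rangeRestrict
  have hf : ∀ g, ρ g = 1 → f g = 1 := fun g e => Subtype.ext (Units.ext e)
  have hN : IsPGroup 2 ρ.toHomUnits.range := by
    rintro ⟨_, g, rfl⟩
    exact ⟨k, Subtype.ext (Units.ext (adm_two hS h1 hk h g))⟩
  rcases eq_top_or_exists_le_coatom (f.comp (FreeGroup.lift S.gam)).range with e | ⟨M, hM, hHM⟩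
  · obtain ⟨w, hw⟩ := e.ge (Subgroup.mem_top (f g))
    exact ⟨w, (congrArg (fun x : ρ.toHomUnits.range => (x.1 : M2 A)) hw).symm⟩
  have hi : M.index = 2 := P022D.L2.RelP.idx hN hM
  let c : GQ → M2 F := fun g => if f g ∈ M then 0 else 1
  have c0 : ∀ g, f g ∈ M → c g = 0 := fun g e => if_pos e
  have hc := hS.gen c ⟨fun g _ k _ => by
      have e := Subgroup.mul_mem_iff_of_index_two hi (a := f g) (b := f k)
      have e2 : (1 : M2 F) + 1 = 0 := by
        rw [← two_smul F, show (2 : F) = 0 from CharTwo.two_eq_zero, zero_smul]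
      simp only [mx, h1, Units.val_one, one_mul, mul_one, c, map_mul, e]
      by_cases a1 : f g ∈ M <;> by_cases a2 : f k ∈ M <;> simp [a1, a2, e2],
    fun g hg => (hg (Subgroup.mem_top g)).elim,
    ⟨ρ.toHomUnits.ker, by
        convert h.opn using 1
        exact Set.ext fun _ => Units.ext_iff,
      fun g hg => c0 g (hf g (Units.ext_iff.1 hg) ▸ M.one_mem)⟩,
    fun l hl P hP g hg => c0 g (hf g (h.unr l hl P hP g hg) ▸ M.one_mem)⟩
    fun i => c0 _ (hHM ⟨FreeGroup.of i, by rw [MonoidHom.comp_apply, FreeGroup.lift_apply_of]⟩)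
  refine (hM.1 (eq_top_iff.2 ?_)).elim
  rintro ⟨_, g, rfl⟩ -
  by_contra hn
  have : c g = 1 := if_neg hn
  rw [hc] at this
  exact zero_ne_one this

/-- the limits of words -/
def Wd (hS : S.Ok) : Submonoid (M2 (PP O ι)) where
  carrier := {M | ∀ k : ℕ, ∃ w, M.map (Ideal.Quotient.mk (maximalIdeal (PP O ι) ^ k)) =
    (wz hS w).map (Ideal.Quotient.mk (maximalIdeal (PP O ι) ^ k))}
  one_mem' k := ⟨1, by rw [map_one]⟩
  mul_mem' {M N} hM hN k := by
    obtain ⟨v, hv⟩ := hM k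
    obtain ⟨w, hw⟩ := hN k
    exact ⟨v * w, by rw [map_mul, Matrix.map_mul, Matrix.map_mul, hv, hw]⟩

/-- `M` is a universal matrix for `g` -/
structure Lm (hS : S.Ok) (g : GQ) (M : M2 (PP O ι)) : Prop where
  wd : M ∈ Wd hS
  ev : ∀ (A : Type) [CommRing A] (φ : PP O ι →+* A) (ρ : GQ →* M2 A),
    (∃ k : ℕ, maximalIdeal (PP O ι) ^ k ≤ RingHom.ker φ) → Adm S φ ρ → ρ g = M.map φ

theorem lm_word (hS : S.Ok) (w : FreeGroup ι) : Lm hS (FreeGroup.lift S.gam w) (wz hS w) :=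
  ⟨fun _ => ⟨w, rfl⟩, fun _ _ _ _ _ h => adm_w hS h w⟩

theorem lm_gen (hS : S.Ok) (i : ι) : Lm hS (S.gam i) (S.Z i) := by
  have := lm_word hS (FreeGroup.of i)
  rwa [FreeGroup.lift_apply_of, wz_of] at this

theorem Lm.mul {hS : S.Ok} {g h : GQ} {M N : M2 (PP O ι)} (a : Lm hS g M) (b : Lm hS h N) :
    Lm hS (g * h) (M * N) :=
  ⟨mul_mem a.wd b.wd, fun A _ φ ρ k e => by
    rw [map_mul, a.ev A φ ρ k e, b.ev A φ ρ k e, Matrix.map_mul]⟩

variable [IsNoetherianRing O] [IsAdicComplete (maximalIdeal O) O] [Finite F] [CharP F 2]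
  [Fintype ι]

theorem baseP (hS : S.Ok) : Base (PP O ι) :=
  haveI : Finite (PP O ι ⧸ maximalIdeal (PP O ι)) := by
    have := fin_pow hS 1
    rwa [pow_one] at this
  { cpl := P022D.CA.Cpl.isAdicCompleteV inferInstance, fin := this }

theorem ex_lm (hS : S.Ok) (h1 : ∀ g, S.rb g = 1) (g : GQ) : ∃ M, Lm hS g M := by
  have := baseP hS
  choose ρ hρ using fun k => (go_jac hS k).2
  have hw : ∀ k, ∃ w, ρ k g = ρ k (FreeGroup.lift S.gam w) := fun k => by
    have := fin_pow hS k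
    have : Finite (PP O ι ⧸ (Jac S ⊔ maximalIdeal (PP O ι) ^ k)) :=
      Finite.of_surjective _ (Ideal.Quotient.factor_surjective le_sup_right)
    exact adm_gen hS h1 (k := k) (by rw [Ideal.mk_ker]; exact le_sup_right) (hρ k) g
  choose w hw using hw
  choose M hM using fun a b => P022D.PA.lim (PP O ι) (hyperfilter ℕ) fun k => wz hS (w k) a b
  have key : ∀ j : ℕ, ∃ k, j ≤ k ∧ ∀ a b, wz hS (w k) a b - M a b ∈ maximalIdeal (PP O ι) ^ j :=
    fun j => (((eventually_ge_atTop j).filter_mono Nat.hyperfilter_le_atTop).and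
      (eventually_all.2 fun a => eventually_all.2 fun b => hM a b j)).exists
  refine ⟨Matrix.of M, fun j => ?_, fun A _ φ σ ⟨j, hj⟩ h => ?_⟩
  · obtain ⟨k, -, hk⟩ := key j
    exact ⟨w k, Matrix.ext fun a b => (Ideal.Quotient.eq.2 (hk a b)).symm⟩
  obtain ⟨k, hk, e⟩ := key j
  have hle : Jac S ⊔ maximalIdeal (PP O ι) ^ k ≤ RingHom.ker φ :=
    sup_le (univ ⟨j, hj⟩ h) ((Ideal.pow_le_pow_right hk).trans hj)
  have h2 : σ = pm (Ideal.Quotient.lift _ φ hle) (ρ k) :=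
    uniq hS ⟨j, hj⟩ h ((hρ k).map (Ideal.Quotient.lift _ φ hle))
  have h3 : σ g = σ (FreeGroup.lift S.gam (w k)) := by rw [h2, pm_apply, pm_apply, hw]
  rw [h3, adm_w hS h]
  exact Matrix.ext fun a b => sub_eq_zero.1 ((map_sub φ _ _).symm.trans (hj (e a b)))

section tr
variable {A : Type} [CommRing A] [Base A] (φ : A →+* PP O ι)
  (hφ : ∀ x ∈ maximalIdeal A, φ x ∈ maximalIdeal (PP O ι))
  (hd : ∀ i, (S.Z i).det ∈ φ.range)
  (ht : ∀ l : List ι, l.Nodup → (l.map S.Z).prod.trace ∈ φ.range)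
include hφ hd ht

theorem tr_word (hS : S.Ok) (w : FreeGroup ι) :
    (wz hS w).trace ∈ φ.range ∧ (wz hS w).det ∈ φ.range := by
  refine fricke (γ := FreeGroup.of) (_root_.P022G.Kd.tf_rep (wz hS)) (fun i => ?_) (fun l hl => ?_)
    (by rw [FreeGroup.closure_range_of]; trivial)
  · have e : ((Matrix.GeneralLinearGroup.det.comp (wz hS).toHomUnits (FreeGroup.of i) :
        (PP O ι)ˣ) : PP O ι) = (S.Z i).det := by rw [← wz_of hS]; rfl
    obtain ⟨a, ha⟩ := hd i
    refine ⟨⟨a, ha.trans e.symm⟩, ?_⟩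
    have hu : IsUnit a := by
      by_contra hn
      exact hφ a hn (by rw [ha, ← e]; exact Units.isUnit _)
    obtain ⟨b, hb⟩ := hu.exists_right_inv
    refine ⟨b, (Units.inv_eq_of_mul_eq_one_right ?_).symm⟩
    rw [e, ← ha, ← map_mul, hb, map_one]
  · have e : wz hS (l.map FreeGroup.of).prod = (l.map S.Z).prod := by
      rw [map_list_prod, List.map_map]
      exact congrArg (fun f => (l.map f).prod) (funext (wz_of hS))
    change (wz hS _).trace ∈ _
    rw [e]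
    exact ht l hl

/-- traces and determinants of limits of words -/
theorem tr_wd (hS : S.Ok) {M : M2 (PP O ι)} (hM : M ∈ Wd hS) :
    M.trace ∈ φ.range ∧ M.det ∈ φ.range := by
  constructor <;> refine cl_range φ hφ _ fun k => ?_ <;> obtain ⟨w, hw⟩ := hM k
  · refine ⟨_, (tr_word φ hφ hd ht hS w).1, Ideal.Quotient.eq.1 ?_⟩
    rw [AddMonoidHom.map_trace, AddMonoidHom.map_trace, hw]
  · refine ⟨_, (tr_word φ hφ hd ht hS w).2, Ideal.Quotient.eq.1 ?_⟩
    rw [RingHom.map_det, RingHom.map_det, RingHom.mapMatrix_apply, RingHom.mapMatrix_apply, hw]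

end tr

/-- **the universal matrices** -/
theorem lim (hS : S.Ok) (h1 : ∀ g, S.rb g = 1) (hi : Function.Injective S.gam) :
    ∃ Φ : GQ → M2 (PP O ι), (∀ g, Lm hS g (Φ g)) ∧ (∀ i, Φ (S.gam i) = S.Z i) ∧
      ∀ (A : Type) [CommRing A] [Base A] (φ : A →+* PP O ι),
        (∀ x ∈ maximalIdeal A, φ x ∈ maximalIdeal (PP O ι)) → (∀ i, (S.Z i).det ∈ φ.range) →
        (∀ l : List ι, l.Nodup → (l.map S.Z).prod.trace ∈ φ.range) →
        ∀ l : List GQ, (l.map Φ).prod.trace ∈ φ.range ∧ (l.map Φ).prod.det ∈ φ.range := by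
  classical
  have h : ∀ g, ∃ M, Lm hS g M ∧ ∀ i, S.gam i = g → M = S.Z i := fun g => by
    by_cases e : ∃ i, S.gam i = g
    · obtain ⟨i, rfl⟩ := e
      exact ⟨_, lm_gen hS i, fun k hk => by rw [hi hk]⟩
    · obtain ⟨M, hM⟩ := ex_lm hS h1 g
      exact ⟨M, hM, fun i hi => (e ⟨i, hi⟩).elim⟩
  choose Φ h2 h3 using h
  refine ⟨Φ, h2, fun i => h3 _ i rfl, fun A _ _ φ hφ hd ht l => tr_wd φ hφ hd ht hS ?_⟩
  refine list_prod_mem fun x hx => ?_
  obtain ⟨g, -, rfl⟩ := List.mem_map.1 hx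
  exact (h2 g).wd

end Vale.Agent.P022S.Koch
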