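import Vale.Agent.P022S.Koch.Gen
import Vale.Agent.P022S.Koch.Coh
import Vale.Agent.P022S.Koch.Locl
import Vale.Agent.P022S.Koch.Lim
import Vale.Agent.P022G.Pres.Main
import Vale.Agent.P022G.Tr.Pr2
import Vale.Agent.P022G.Ax.Gal
import Vale.Agent.P022D.NR.Ev

/-!
# P022S: the presentation with minimal generators
-/

set_option linter.all false

noncomputable section

namespace Vale.Agent.P022S.Koch

open NumberField IsLocalRing
open Vale.Agent.P022 Vale.Agent.P022.H443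
open Vale.Agent.P027M.S (Inert mx)
open Vale.Agent.P022D.Sel (M2 IsDec)
open Vale.Agent.P022D.W (dec)
open Vale.Agent.P022E.Loc (Tm)
open Vale.Agent.P022E.GW (Ov Op Ur H1)
open Vale.Agent.P022G.Pres Vale.Agent.P022G.Pres.H96

section db
variable {T : Finset ℕ} {ι : Type} [DecidableEq ι] {γ : ι → GQ} {χ : ι → GQ → ZMod 2}

theorem Db.inj (h : Db T γ χ) : Function.Injective γ := fun i j e => by
  by_contra n
  have := h.dual i j
  rw [← e, h.dual, if_pos rfl, if_neg n] at this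
  exact one_ne_zero this

/-- the field `gen` of `Dt.Ok` -/
theorem Db.h1 (h : Db T γ χ) {F : Type} [Field F] [CharP F 2] {ρ : GQ →* GL (Fin 2) F}
    (h1 : ∀ g, ρ g = 1) : ∀ c ∈ H1 ρ T ⊤, (∀ i, c (γ i) = 0) → c = 0 := fun c hc h0 =>
  van h.gen (fun x => by rw [two_nsmul]; exact P022G.Obs.two_m x) c (fun g k => by
    simpa [mx, h1] using hc.1 g trivial k trivial) hc.2.2.1 hc.2.2.2 h0

theorem Db.z3 [Fintype ι] (h : Db T γ χ) {F : Type} [Field F] [CharP F 2]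
    {ρ : GQ →* GL (Fin 2) F} (h1 : ∀ g, ρ g = 1) : ∃ c : Fin (Fintype.card ι * 3) → GQ → M2 F,
    (∀ a, c a ∈ H1 ρ T ⊤ ∧ ∀ g, (c a g).trace = 0) ∧ LinearIndependent F c := by
  let u : ZMod 2 →+* F := ZMod.castHom (dvd_refl 2) F
  let E : Fin 3 → M2 F := ![1, !![0, 1; 0, 0], !![0, 0; 1, 0]]
  let c : ι × Fin 3 → GQ → M2 F := fun p g => u (χ p.1 g) • E p.2
  have li : LinearIndependent F c := by
    rw [Fintype.linearIndependent_iff]
    rintro y hy ⟨i, a⟩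
    have e := congrFun hy (γ i)
    rw [Finset.sum_apply, Fintype.sum_prod_type, Finset.sum_eq_single i (fun b _ hb => by
      simp [c, h.dual, hb]) (fun k => absurd (Finset.mem_univ _) k)] at e
    simp only [c, Pi.smul_apply, h.dual, if_pos rfl, map_one, one_smul, Fin.sum_univ_three,
      Pi.zero_apply] at e
    have e0 := congrFun (congrFun e 0) 0
    have e1 := congrFun (congrFun e 0) 1
    have e2 := congrFun (congrFun e 1) 0
    simp [E] at e0 e1 e2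
    fin_cases a
    exacts [e0, e1, e2]
  let e : Fin (Fintype.card ι * 3) ≃ ι × Fin 3 :=
    (Fintype.equivFinOfCardEq (by rw [Fintype.card_prod, Fintype.card_fin])).symm
  refine ⟨c ∘ e, fun a => ?_, li.comp e e.injective⟩
  obtain ⟨a1, ⟨U, a2, a3⟩, a4⟩ := h.mem (e a).1
  refine ⟨⟨fun g _ k _ => ?_, fun g hg => absurd trivial hg, ⟨U, a2, fun σ hσ => ?_⟩,
    fun l hl P hP g hg => ?_⟩, fun g => ?_⟩
  · simp only [Function.comp, c, a1, map_add, add_smul, mx, h1, Units.val_one, one_mul, mul_one]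
  · simp only [Function.comp, c, a3 σ hσ, map_zero, zero_smul]
  · simp only [Function.comp, c, a4 l hl P hP g hg, map_zero, zero_smul]
  · have t : ∀ b, (E b).trace = 0 := fun b => by
      fin_cases b
      · exact (Matrix.trace_fin_two _).trans (CharTwo.add_self_eq_zero (1 : F))
      · simp [E]
      · simp [E]
    simp only [Function.comp, c, Matrix.trace_smul, t, smul_zero]

end db

variable {O F ι : Type} [CommRing O] [Field F] [IsLocalRing O] [IsNoetherianRing O]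
  [IsAdicComplete (maximalIdeal O) O] [Finite F] [CharP F 2] [Fintype ι] {S : Dt O F ι}

theorem Lm.uv {hS : S.Ok} {g : GQ} {M : M2 (PP O ι)} (h : Lm hS g M) : Uv S g M := h.ev

theorem cpow (hS : S.Ok) {k : ℕ} {c : O} (h : c ∈ maximalIdeal O ^ k) :
    (MvPowerSeries.C c : PP O ι) ∈ maximalIdeal (PP O ι) ^ k := by
  have b : (maximalIdeal O).map (MvPowerSeries.C : O →+* PP O ι) ≤ maximalIdeal (PP O ι) :=
    Ideal.map_le_iff_le_comap.2 fun c hc => hS.max.1 (by simpa [Dt.π0] using (hS.ker c).2 hc)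
  refine Ideal.pow_right_mono b k ?_
  rw [← Ideal.map_pow]
  exact Ideal.mem_map_of_mem _ h

/-- the diagonal point -/
theorem dgp (hS : S.Ok) (h1 : ∀ g, S.rb g = 1) (k : ℕ) :
    ∃ (φ : PP O ι →+* O ⧸ maximalIdeal O ^ k) (ρ : GQ →* M2 (O ⧸ maximalIdeal O ^ k)),
      maximalIdeal (PP O ι) ^ k ≤ RingHom.ker φ ∧ Adm S φ ρ ∧
      ∀ g, ρ g 0 0 = Ideal.Quotient.mk _ (S.δ g) := by
  have d1 : ∀ g, S.red (S.δ g) = 1 := fun g => by rw [hS.det, mx, h1]; simp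
  let D : GQ →* M2 O :=
    { toFun := fun g => !![S.δ g, 0; 0, 1]
      map_one' := by rw [map_one, Matrix.one_fin_two]
      map_mul' := fun g h => by rw [map_mul, Matrix.mul_fin_two]; simp }
  have De : ∀ g, D g = !![S.δ g, 0; 0, 1] := fun _ => rfl
  have Dr : ∀ g a b, S.red (D g a b) = mx S.rb g a b := fun g a b => by
    rw [De, mx, h1]
    fin_cases a <;> fin_cases b <;> simp [d1]
  obtain ⟨θ, t1, t2⟩ := P022D.NR.exists_ev (ι := Ix ι) (maximalIdeal O) (RingHom.id O)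
    (fun s => D (S.gam s.1) s.2.1 s.2.2 - S.c0 s.1 s.2.1 s.2.2) fun s => (hS.ker _).1 (by
      rw [map_sub, Dr, ← hS.lift, Matrix.map_apply, sub_self])
  have hl : maximalIdeal (PP O ι) ≤ (maximalIdeal O).comap θ := by
    have : RingHom.ker (S.red.comp θ) = maximalIdeal (PP O ι) :=
      eq_maximalIdeal (RingHom.ker_isMaximal_of_surjective _ fun x => (hS.surj x).elim fun c e =>
        ⟨MvPowerSeries.C c, by rw [RingHom.comp_apply, t1]; exact e⟩)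
    exact fun p hp => (hS.ker _).1 (this.ge hp)
  let q := Ideal.Quotient.mk (maximalIdeal O ^ k)
  refine ⟨q.comp θ, pm q D, fun p hp => Ideal.Quotient.eq_zero_iff_mem.2
    (Ideal.le_comap_pow θ k (Ideal.pow_right_mono hl k hp)), ⟨fun i => ?_, fun g => ?_, ?_,
    fun l hl P hP g hg => pm_one q D ?_, fun g a b => ⟨MvPowerSeries.C (D g a b), ?_, ?_⟩⟩,
    fun g => rfl⟩
  · ext a b
    simp only [pm_apply, Matrix.map_apply, Dt.Z, Matrix.of_apply, RingHom.comp_apply, map_add θ,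
      t1, t2, RingHom.id_apply, add_sub_cancel]
  · rw [pm_apply, ← RingHom.mapMatrix_apply, ← RingHom.map_det, RingHom.comp_apply, t1, De]
    simp
  · convert hS.dop k using 2
    ext g
    rw [pm_apply, De, ← Ideal.Quotient.eq, map_one]
    refine ⟨fun h => by simpa using congrFun (congrFun h 0) 0, fun h => ?_⟩
    ext a b
    fin_cases a <;> fin_cases b <;> simp [q, h]
  · rw [De, hS.dun l hl P hP g hg, Matrix.one_fin_two]
  · rw [RingHom.comp_apply, t1]; rfl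
  · simpa [Dt.π0] using Dr g a b

/-- **the determinant of a universal matrix** -/
theorem det_lm {hS : S.Ok} (h1 : ∀ g, S.rb g = 1) {g : GQ} {M : M2 (PP O ι)} (h : Lm hS g M)
    {I : Ideal (PP O ι)} (hI : ∀ i, Cn.dt S i ∈ I) : M.det - MvPowerSeries.C (S.δ g) ∈ I := by
  have := baseP hS
  refine P022D.PA.mem_of_sup I _ fun k => ?_
  obtain ⟨w, hw⟩ := h.wd k
  obtain ⟨φ, ρ, a1, a2, a3⟩ := dgp hS h1 k
  have e : ∀ a b, M a b - wz hS w a b ∈ maximalIdeal (PP O ι) ^ k := fun a b =>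
    Ideal.Quotient.eq.1 (congrFun (congrFun hw a) b)
  have e1 : ρ g = ρ (FreeGroup.lift S.gam w) := by
    rw [h.ev _ φ ρ ⟨k, a1⟩ a2, adm_w hS a2]
    exact Matrix.ext fun a b => sub_eq_zero.1 ((map_sub φ _ _).symm.trans (a1 (e a b)))
  have e2 := cpow hS (Ideal.Quotient.eq.1
    ((a3 _).symm.trans ((congrFun (congrFun e1.symm 0) 0).trans (a3 g))))
  have e3 : M.det - (wz hS w).det ∈ maximalIdeal (PP O ι) ^ k := Ideal.Quotient.eq.1 (by
    rw [RingHom.map_det, RingHom.map_det, RingHom.mapMatrix_apply, RingHom.mapMatrix_apply, hw])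
  have e4 : (wz hS w).det - MvPowerSeries.C (S.δ (FreeGroup.lift S.gam w)) ∈ I :=
    Ideal.Quotient.eq.1 (DFunLike.congr_fun (FreeGroup.ext_hom
      ((Ideal.Quotient.mk I).toMonoidHom.comp (Matrix.detMonoidHom.comp (wz hS)))
      (((Ideal.Quotient.mk I).comp MvPowerSeries.C).toMonoidHom.comp
        (S.δ.comp (FreeGroup.lift S.gam))) fun i => by
      refine Ideal.Quotient.eq.2 ?_
      change (wz hS (FreeGroup.of i)).det - MvPowerSeries.C (S.δ (FreeGroup.lift S.gam _)) ∈ I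
      rw [wz_of, FreeGroup.lift_apply_of]
      exact hI i) w)
  have := Submodule.add_mem_sup e4 (add_mem e3 e2)
  rw [map_sub] at this
  convert this using 1
  ring

variable [DecidableEq ι] {χ : ι → GQ → ZMod 2} {Lst : Ideal (PP O ι)}

/-- **the presentation**: three relations for every odd prime without local lifts -/
theorem kochN (hS : S.Ok) (h1 : ∀ g, S.rb g = 1) (hχ : Db S.T S.gam χ) (h2 : 2 ∈ S.T)
    (h0 : 0 ∈ S.T) (hT : ∀ l ∈ S.T, l = 0 ∨ l.Prime) {B : Finset ℕ} (b0 : 0 ∈ B)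
    {D : ℕ → Subgroup GQ} (hD : ∀ l ∈ S.T, l ≠ 2 → IsDec l (D l : Set GQ))
    (hL : Lst ≤ maximalIdeal (PP O ι)) (hd : ∀ i, Cn.dt S i ∈ Lst)
    (hl : ∀ l ∈ S.T, l ≠ 2 → l ∈ B → LOCL S Lst (D l)) :
    ∃ (n : ℕ) (e : Fin n → PP O ι), n ≤ 3 * ((S.T \ B).erase 2).card ∧ (∀ i, e i ∈ Jac S) ∧
      Jac S ≤ Ideal.span (Set.range e) ⊔ Lst := by
  obtain ⟨c, c1, c2⟩ := hχ.z3 h1
  obtain ⟨j, j1, j2⟩ := Cn.saved hS hd (K := Empty) Empty.elim (fun a => a.elim) fun a => a.elim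
  obtain ⟨n, e, k1, k2⟩ := pres O F ι S hS Lst hL {E | LOCL S Lst E} _
    (cohS P022G.Obs.sc2 h1 (P022G.Ax.fx_top h2 hT) h0 b0 hD hl le_rfl) (fun _ h => h) _ j j1 j2 _ c
    c1 c2 _ (Ideal.span_eq _)
  refine ⟨n, e, ?_, k2⟩
  rw [Fintype.card_eq_zero (α := Empty)] at k1
  omega

/-- the places -/
structure Pc (S : Dt O F ι) (C : Finset ℕ) (P : ℕ → Ideal (𝓞 Qb)) (τ f : ℕ → GQ) (ic : ι)
    (iτ : C → ι) : Prop where
  hT : S.T = insert 0 (insert 2 C)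
  ov : ∀ l ∈ C, Ov l (P l)
  n2 : 2 ∉ C
  tm : ∀ l ∈ C, Tm l (P l) (τ l) (f l)
  cj : P022.IsConj (S.gam ic)
  odd : S.δ (S.gam ic) = -1
  ne : S.gam ic ≠ 1
  hτ : ∀ l, S.gam (iτ l) = τ l

variable {C : Finset ℕ} {P : ℕ → Ideal (𝓞 Qb)} {τ f : ℕ → GQ} {ic : ι} {iτ : C → ι}

theorem kochB (hS : S.Ok) (h1 : ∀ g, S.rb g = 1) (hχ : Db S.T S.gam χ) (H : Pc S C P τ f ic iτ)
    (hL : Lst ≤ maximalIdeal (PP O ι)) (hd : ∀ i, Cn.dt S i ∈ Lst) (ht : (S.Z ic).trace ∈ Lst)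
    (B : Finset ℕ) (hl : ∀ l ∈ C, l ∈ B → LOCL S Lst (dec (P l))) :
    ∃ (n : ℕ) (e : Fin n → PP O ι), n ≤ 3 * (C \ B).card ∧ (∀ i, e i ∈ Jac S) ∧
      Jac S ≤ Ideal.span (Set.range e) ⊔ Lst := by
  let D : ℕ → Subgroup GQ := fun l =>
    if l = 0 then P022G.Tr.Pr.two _ (P022G.Tr.Pr.conj_sq H.cj) else dec (P l)
  have cs : ∀ l ∈ S.T, l ≠ 2 → l = 0 ∨ (l ≠ 0 ∧ l ∈ C) := fun l hl l2 => by
    rw [H.hT, Finset.mem_insert, Finset.mem_insert] at hl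
    rcases hl with h | h | h
    exacts [Or.inl h, absurd h l2, Or.inr ⟨(H.ov l h).1.ne_zero, h⟩]
  obtain ⟨n, e, k1, k2⟩ := kochN hS h1 hχ (by simp [H.hT]) (by simp [H.hT]) (fun l hl => by
      by_cases l2 : l = 2
      · exact Or.inr (l2 ▸ Nat.prime_two)
      · exact (cs l hl l2).imp id fun h => (H.ov l h.2).1)
    (B := insert 0 B) (Finset.mem_insert_self _ _) (D := D) (fun l hl l2 => by
      rcases cs l hl l2 with rfl | ⟨h, k⟩
      · exact Or.inl ⟨rfl, _, H.cj, rfl⟩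
      · exact Or.inr ⟨(H.ov l k).1, P l, (H.ov l k).2.1, (H.ov l k).2.2, by
          simp only [D, if_neg h]; rfl⟩) hL hd fun l hl' l2 hb => by
      rcases cs l hl' l2 with rfl | ⟨h, k⟩
      · exact loclR (c := S.gam ic) rfl H.ne rfl H.odd ht (hd ic)
      · simp only [D, if_neg h]
        exact hl l k ((Finset.mem_insert.1 hb).resolve_left h)
  refine ⟨n, e, k1.trans (Nat.mul_le_mul_left 3 (Finset.card_le_card fun l hl => ?_)), k2⟩
  obtain ⟨a, b⟩ := Finset.mem_erase.1 hl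
  obtain ⟨b, c⟩ := Finset.mem_sdiff.1 b
  rw [Finset.mem_insert, not_or] at c
  exact Finset.mem_sdiff.2 ⟨((cs l b a).resolve_left c.1).2, c.2⟩

theorem hu1 (h1 : ∀ g, S.rb g = 1) (g : GQ) : (mx S.rb g).trace = 0 ∧ (mx S.rb g).det = 1 := by
  rw [mx, h1, Units.val_one, Matrix.det_one, Matrix.trace_fin_two]
  exact ⟨CharTwo.add_self_eq_zero (1 : F), rfl⟩

/-- an unramified prime costs nothing but the equations `τ = 1` -/
theorem loc0 (hS : S.Ok) (h1 : ∀ g, S.rb g = 1) (H : Pc S C P τ f ic iτ)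
    (hd : ∀ i, Cn.dt S i ∈ Lst) (l : C) (a : S.Z (iτ l) 0 0 - 1 ∈ Lst) (b : S.Z (iτ l) 0 1 ∈ Lst)
    (c : S.Z (iτ l) 1 0 ∈ Lst)
    (d : S.Z (iτ l) 1 1 - 1 ∈ Lst ∨ MvPowerSeries.C (S.δ (τ l)) - 1 ∈ Lst) :
    LOCL S Lst (dec (P l)) := by
  obtain ⟨M, hM⟩ := ex_lm hS h1 (f l)
  exact loclT0 hS (H.ov l l.2) (H.tm l l.2) (fun g _ => hu1 h1 g) (H.hτ l ▸ uv_gen (iτ l)) hM.uv
    (H.hτ l ▸ hd (iτ l)) (det_lm h1 hM hd) a b c d

/-- **characteristic two, type `J`**: all relations are consequences of the listed equations -/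
theorem koch2 (hS : S.Ok) (h1 : ∀ g, S.rb g = 1) (hχ : Db S.T S.gam χ) (H : Pc S C P τ f ic iτ)
    {Φ : C → M2 (PP O ι)} (hΦ : ∀ l : C, Lm hS (f l) (Φ l)) (J : Finset C)
    (hL : Lst ≤ maximalIdeal (PP O ι)) (hd : ∀ i, Cn.dt S i ∈ Lst) (ht : (S.Z ic).trace ∈ Lst)
    (hπ : ∀ c ∈ maximalIdeal O, (MvPowerSeries.C c : PP O ι) ∈ Lst)
    (hJ : ∀ l ∈ J, (S.Z (iτ l)).trace ∈ Lst ∧ (Φ l).trace ∈ Lst ∧ (S.Z (iτ l) * Φ l).trace ∈ Lst)
    (hu : ∀ l ∉ J, S.Z (iτ l) 0 0 - 1 ∈ Lst ∧ S.Z (iτ l) 0 1 ∈ Lst ∧ S.Z (iτ l) 1 0 ∈ Lst) :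
    Jac S ≤ Lst := by
  obtain ⟨n, e, k1, -, k2⟩ := kochB hS h1 hχ H hL hd ht C fun l hl _ => by
    by_cases m : (⟨l, hl⟩ : C) ∈ J
    · obtain ⟨a, b, c⟩ := hJ _ m
      exact loclT1 hS (H.ov l hl) (H.tm l hl) (fun g _ => hu1 h1 g)
        (H.hτ ⟨l, hl⟩ ▸ uv_gen (iτ ⟨l, hl⟩)) (hΦ ⟨l, hl⟩).uv (H.hτ ⟨l, hl⟩ ▸ hd (iτ ⟨l, hl⟩))
        (det_lm h1 (hΦ ⟨l, hl⟩) hd) hπ a b c
    · obtain ⟨a, b, c⟩ := hu _ m
      refine loc0 hS h1 H hd ⟨l, hl⟩ a b c (Or.inr ?_)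
      have h := hπ (S.δ (τ l) - 1) ((hS.ker _).1 (by
        rw [map_sub, map_one, hS.det, (hu1 h1 _).2, sub_self]))
      rwa [map_sub, map_one] at h
  obtain rfl : n = 0 := by simpa using k1
  simpa using k2

/-- **over `O`**, the primes of `X` unramified -/
theorem koch0 (hS : S.Ok) (h1 : ∀ g, S.rb g = 1) (hχ : Db S.T S.gam χ) (H : Pc S C P τ f ic iτ)
    (X : Finset ℕ) (hL : Lst ≤ maximalIdeal (PP O ι)) (hd : ∀ i, Cn.dt S i ∈ Lst)
    (ht : (S.Z ic).trace ∈ Lst) (hδ : ∀ l : C, (l : ℕ) ∈ X → S.δ (τ l) = 1)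
    (hu : ∀ l : C, (l : ℕ) ∈ X →
      S.Z (iτ l) 0 0 - 1 ∈ Lst ∧ S.Z (iτ l) 0 1 ∈ Lst ∧ S.Z (iτ l) 1 0 ∈ Lst) :
    ∃ (n : ℕ) (e : Fin n → PP O ι), n ≤ 3 * (C \ X).card ∧ (∀ i, e i ∈ Jac S) ∧
      Jac S ≤ Ideal.span (Set.range e) ⊔ Lst :=
  kochB hS h1 hχ H hL hd ht X fun l hl hx => by
    obtain ⟨a, b, c⟩ := hu ⟨l, hl⟩ hx
    refine loc0 hS h1 H hd ⟨l, hl⟩ a b c (Or.inr ?_)
    rw [hδ ⟨l, hl⟩ hx, map_one, sub_self]
    exact zero_mem _

end Vale.Agent.P022S.Koch
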