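import Vale.Agent.P022S.Koch.Gen

/-!
# P022S: minimal generators inside a given family of generators
-/

set_option linter.all false

noncomputable section

namespace Vale.Agent.P022S.Koch

open NumberField
open Vale.Agent.P022 Vale.Agent.P022.H443
open Vale.Agent.P027M.S (Inert mx)
open Vale.Agent.P022E.GW
open Vale.Agent.P022E.GW.Kc (kq)

/-- from the generation of finite groups to the characters -/
theorem of_gen {T : Finset ℕ} {ι : Type} {γ : ι → GQ}
    (h : ∀ (Γ : Type) [Group Γ] [Finite Γ] (f : GQ →* Γ), IsOpen {g : GQ | f g = 1} →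
      (∀ g, ∃ k : ℕ, f g ^ 2 ^ k = 1) →
      (∀ l : ℕ, l.Prime → l ∉ T → ∀ P : Ideal (𝓞 Qb), P.IsPrime → (l : 𝓞 Qb) ∈ P →
        ∀ s, Inert P s → f s = 1) →
      ∀ g, f g ∈ Subgroup.closure (Set.range fun i => f (γ i))) :
    ∀ x ∈ Qc T, (∀ i, x (γ i) = 0) → x = 0 := by
  rintro x ⟨a, ⟨U, hU, b⟩, c⟩ h0
  let f : GQ →* Multiplicative (ZMod 2) := MonoidHom.mk' (fun g => Multiplicative.ofAdd (x g))
    fun g k => congrArg Multiplicative.ofAdd (a g k)
  funext g
  have := h _ f (Subgroup.isOpen_mono (H₁ := U) (H₂ := f.ker) (fun u hu => b u hu) hU)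
    (fun g => ⟨1, by
      generalize f g = y
      revert y
      decide⟩) (fun l h1 h2 P h3 h4 s hs => c l h2 P ⟨h1, h3, h4⟩ s hs) g
  exact (Subgroup.closure_le (K := ⊥)).2 (by rintro _ ⟨i, rfl⟩; exact h0 i) this

/-- **a minimal subfamily** -/
theorem ex_sub {T C : Finset ℕ} (h2 : 2 ∈ T) (hC : C ⊆ T) (c2 : 2 ∉ C) (P : ℕ → Ideal (𝓞 Qb))
    (hP : ∀ l ∈ C, Ov l (P l)) {κ : Type} (g : κ → GQ)
    (hg : ∀ x ∈ Qc T, (∀ i, x (g i) = 0) → x = 0) (jc : κ) (jτ : C → κ)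
    (hτ : ∀ l : C, Gn l (P l) (g (jτ l))) (hc : IsConj (g jc)) :
    ∃ (ι : Type) (_ : Fintype ι) (_ : DecidableEq ι) (e : ι → κ) (χ : ι → GQ → ZMod 2)
      (i2 ic : ι) (iτ : C → ι), Db T (fun i => g (e i)) χ ∧ e ic = jc ∧ (∀ l, e (iτ l) = jτ l) ∧
      Function.Injective (Sum.elim ![i2, ic] iτ) := by
  classical
  haveI := qc_fin T
  have n2 : ∀ l : C, (l : ℕ) ≠ 2 := fun l e => c2 (e ▸ l.2)
  let R := LinearMap.funLeft (ZMod 2) (ZMod 2) g
  haveI : Finite ((Qc T).map R) :=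
    Finite.of_surjective _ (LinearMap.submoduleMap_surjective R (Qc T))
  obtain ⟨ι, j1, j2, e, γ, χ, a1, a2, a3, a4, a5⟩ := ext (κ := Option C) ((Qc T).map R)
    (fun o => o.elim jc jτ) (fun o => R (o.elim (kq (-1)) fun l => kq ((l : ℕ) : Qb))) (by
      rintro (_ | l)
      exacts [⟨_, km_mem h2, rfl⟩, ⟨_, kq_mem h2 (hP l l.2).1 (hC l.2), rfl⟩]) (by
      rintro (_ | l) (_ | l')
      · exact km_c hc
      · exact P022G.Obs.Sc2.m1 (hP _ l'.2) (n2 l') (hτ l').1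
      · exact kq_c hc _ (hP l l.2).1.ne_zero
      · by_cases h : l = l'
        · subst h
          rw [if_pos rfl]
          exact ((Tg.gn_iff (hP _ l.2)).1 (hτ l)).2
        · rw [if_neg fun k => h (Option.some_injective _ k)]
          exact kq_ine (hP _ l'.2) (n2 l') (hP l l.2).1 (fun k => h (Subtype.ext k.symm))
            (hτ l').1)
  choose ψ b1 b2 using a3
  have gen : ∀ x ∈ Qc T, (∀ i, x (g (γ i)) = 0) → x = 0 := fun x hx h =>
    hg x hx (congrFun (a5 (R x) ⟨x, hx, rfl⟩ h))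
  have ns : ∃ i, i ∉ Set.range e := by
    by_contra hn
    have hs : ∀ i, i ∈ Set.range e := fun i => by_contra fun k => hn ⟨i, k⟩
    have z := gen _ (kq_mem h2 Nat.prime_two h2) fun i => by
      obtain ⟨k, rfl⟩ := hs i
      rw [a2]
      rcases k with _ | l
      · exact kq_c hc 2 two_ne_zero
      · exact kq_ine (hP _ l.2) (n2 l) Nat.prime_two (n2 l) (hτ l).1
    have o : Ov 2 (P022D.Loc2.PP 2) :=
      ⟨Nat.prime_two, P022D.Loc2.PP_prime 2, P022D.Loc2.p_mem_PP 2⟩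
    obtain ⟨t, ht⟩ := Tg.ex_gn' o
    have := ((Tg.gn_iff o).1 ht).2
    rw [z] at this
    exact zero_ne_one this
  obtain ⟨i2, hi⟩ := ns
  refine ⟨ι, j1, j2, γ, ψ, i2, e none, fun l => e (some l),
    ⟨b1, fun i j => (congrFun (b2 i) (γ j)).trans (a4 i j), gen⟩, a2 none,
    fun l => a2 (some l), ?_⟩
  rintro (x | x) (y | y) h
  · fin_cases x <;> fin_cases y
    · rfl
    · exact absurd ⟨_, h.symm⟩ hi
    · exact absurd ⟨_, h⟩ hi
    · rfl
  · fin_cases x
    · exact absurd ⟨_, h.symm⟩ hi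
    · exact absurd (a1 h) (by simp)
  · fin_cases y
    · exact absurd ⟨_, h⟩ hi
    · exact absurd (a1 h) (by simp)
  · rw [Option.some_injective _ (a1 h)]

theorem card_le {ι : Type} [Fintype ι] {C : Finset ℕ} {i2 ic : ι} {iτ : C → ι}
    (h : Function.Injective (Sum.elim ![i2, ic] iτ)) : C.card + 2 ≤ Fintype.card ι := by
  have := Fintype.card_le_of_injective _ h
  rwa [Fintype.card_sum, Fintype.card_fin, Fintype.card_coe, add_comm] at this

end Vale.Agent.P022S.Koch
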