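import Vale.Agent.P022G.Gen
import Vale.Agent.P022G.Obs.Sc2

/-!
# P022S: minimal generators of the maximal pro-`2` quotient
-/

set_option linter.all false

noncomputable section

namespace Vale.Agent.P022S.Koch

open NumberField
open Vale.Agent.P022 Vale.Agent.P022.H443
open Vale.Agent.P027M.S (Inert mx)
open Vale.Agent.P022E.Loc (Tm)
open Vale.Agent.P022E.GW
open Vale.Agent.P022E.GW.Kc (kq kq_add kq_opn rt)

/-- extension of a biorthogonal system -/
theorem ext {G F κ : Type} [Field F] [Fintype κ] [DecidableEq κ] (V : Submodule F (G → F))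
    [Finite V] (γ0 : κ → G) (χ0 : κ → G → F) (h0 : ∀ i, χ0 i ∈ V)
    (d0 : ∀ i j, χ0 i (γ0 j) = if i = j then 1 else 0) :
    ∃ (ι : Type) (_ : Fintype ι) (_ : DecidableEq ι) (e : κ → ι) (γ : ι → G) (χ : ι → G → F),
      Function.Injective e ∧ (∀ k, γ (e k) = γ0 k) ∧ (∀ i, χ i ∈ V) ∧
      (∀ i j, χ i (γ j) = if i = j then 1 else 0) ∧ ∀ x ∈ V, (∀ i, x (γ i) = 0) → x = 0 := by
  classical
  let R : ℕ → Prop := fun n => ∃ (ι : Type) (_ : Fintype ι) (_ : DecidableEq ι) (e : κ → ι)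
    (γ : ι → G) (χ : ι → G → F), Fintype.card ι = n ∧ Function.Injective e ∧
      (∀ k, γ (e k) = γ0 k) ∧ (∀ i, χ i ∈ V) ∧ ∀ i j, χ i (γ j) = if i = j then 1 else 0
  have bd : ∀ n, R n → n ≤ Nat.card V := by
    rintro n ⟨ι, _, _, e, γ, χ, rfl, -, -, a, b⟩
    rw [← Nat.card_eq_fintype_card]
    refine Nat.card_le_card_of_injective (fun i => (⟨χ i, a i⟩ : V)) fun i j h => ?_
    by_contra n
    have := congrFun (congrArg Subtype.val h) (γ j)
    simp only [b, if_neg n, if_pos rfl] at this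
    exact zero_ne_one this
  have r0 : R (Fintype.card κ) := ⟨κ, _, _, id, γ0, χ0, rfl, fun _ _ h => h, fun _ => rfl, h0, d0⟩
  obtain ⟨ι, j1, j2, e, γ, χ, hc, a1, a2, a3, a4⟩ : R (Nat.findGreatest R (Nat.card V)) :=
    Nat.findGreatest_spec (bd _ r0) r0
  refine ⟨ι, j1, j2, e, γ, χ, a1, a2, a3, a4, fun x hx h => ?_⟩
  by_contra hn
  obtain ⟨g, hg⟩ := Function.ne_iff.1 hn
  have hg' : x g ≠ 0 := hg
  have r : R (Nat.findGreatest R (Nat.card V) + 1) := by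
    refine ⟨Option ι, inferInstance, inferInstance, some ∘ e, fun o => o.elim g γ,
      fun o => o.elim ((x g)⁻¹ • x) fun i => χ i - (χ i g * (x g)⁻¹) • x, by
        rw [Fintype.card_option, hc], (Option.some_injective _).comp a1, a2, ?_, ?_⟩
    · rintro (_ | i)
      exacts [V.smul_mem _ hx, V.sub_mem (a3 i) (V.smul_mem _ hx)]
    · rintro (_ | i) (_ | j)
      · simp [hg']
      · simp [h]
      · simp [hg']
      · simp [h, a4]
  exact Nat.findGreatest_is_greatest (Nat.lt_succ_self _) (bd _ r) r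

/-- the quadratic characters which are unramified outside `T` -/
def Qc (T : Finset ℕ) : Submodule (ZMod 2) (GQ → ZMod 2) where
  carrier := {c | (∀ g h, c (g * h) = c g + c h) ∧ Op c ∧ Ur T c}
  add_mem' {a b} ha hb := ⟨fun g h => by simp only [Pi.add_apply, ha.1, hb.1]; ring,
    ha.2.1.add hb.2.1, fun l hl P hP g hg => by
      rw [Pi.add_apply, ha.2.2 l hl P hP g hg, hb.2.2 l hl P hP g hg, add_zero]⟩
  zero_mem' := ⟨fun _ _ => by simp, ⟨⊤, isOpen_univ, fun _ _ => rfl⟩, fun _ _ _ _ _ _ => rfl⟩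
  smul_mem' r a ha := ⟨fun g h => by simp only [Pi.smul_apply, ha.1, smul_add],
    ha.2.1.imp fun U hU => ⟨hU.1, fun σ hσ => by rw [Pi.smul_apply, hU.2 σ hσ, smul_zero]⟩,
    fun l hl P hP g hg => by rw [Pi.smul_apply, ha.2.2 l hl P hP g hg, smul_zero]⟩

theorem qc_fin (T : Finset ℕ) : Finite (Qc T) := by
  obtain ⟨U, h1, -, hU⟩ := _root_.P022G.Sel.Finr.ex_U (H := ⊤) isOpen_univ T
  haveI := H916.isGalois_Qb
  haveI : Finite (GQ ⧸ U) := Subgroup.quotient_finite_of_isOpen U h1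
  refine Finite.of_injective (fun (c : Qc T) (q : GQ ⧸ U) => c.1 q.out) fun a b h => ?_
  have k : ∀ (c : Qc T) (g : GQ), c.1 g = c.1 (QuotientGroup.mk g : GQ ⧸ U).out := fun c g => by
    obtain ⟨u, hu⟩ := QuotientGroup.mk_out_eq_mul U g
    rw [hu, c.2.1, hU (ZMod 2) (by decide) c.1 (fun g _ h _ => c.2.1 g h) c.2.2.1 c.2.2.2 u u.2,
      add_zero]
  exact Subtype.ext (funext fun g => by rw [k a, k b]; exact congrFun h _)

theorem kq_ine {a b : ℕ} {P : Ideal (𝓞 Qb)} (h : Ov a P) (ha : a ≠ 2) (hb : b.Prime) (e : a ≠ b)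
    {g : GQ} (hg : Inert P g) : kq (b : Qb) g = 0 :=
  Kc.kq_unit h.2.1 (by exact_mod_cast P022G.Obs.Sc2.n2 h Nat.prime_two ha) (c := (b : 𝓞 Qb))
    (P022G.Obs.Sc2.n2 h hb e) hg (map_natCast g b)

theorem kq_mem {T : Finset ℕ} (h2 : 2 ∈ T) {b : ℕ} (hb : b.Prime) (hT : b ∈ T) :
    kq (b : Qb) ∈ Qc T :=
  ⟨fun g h => kq_add (map_natCast g b) (map_natCast h b), kq_opn _, fun l hl P hP g hg =>
    kq_ine hP (fun e => hl (e ▸ h2)) hb (fun e => hl (e ▸ hT)) hg⟩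

theorem km_mem {T : Finset ℕ} (h2 : 2 ∈ T) : kq (-1) ∈ Qc T :=
  ⟨fun g h => kq_add (by simp) (by simp), kq_opn _, fun l hl P hP g hg =>
    P022G.Obs.Sc2.m1 hP (fun e => hl (e ▸ h2)) hg⟩

theorem kq_c {c : GQ} (h : IsConj c) (b : ℕ) (hb : b ≠ 0) : kq (b : Qb) c = 0 := by
  obtain ⟨f, hf⟩ := h
  refine (Kc.kq_zero (Kc.rt_sq _) c).2 ((Kc.pm (Kc.rt_sq _) (map_natCast c b)).resolve_right
    fun e => ?_)
  have e1 := Complex.mul_conj (f (rt (b : Qb)))
  rw [← hf, e, map_neg, mul_neg, ← map_mul, ← pow_two, Kc.rt_sq, map_natCast] at e1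
  have e2 := congrArg Complex.re e1
  have e3 := Complex.normSq_nonneg (f (rt (b : Qb)))
  simp only [Complex.neg_re, Complex.natCast_re, Complex.ofReal_re] at e2
  rw [← e2] at e3
  have : (0 : ℝ) < b := by positivity
  linarith

theorem km_c {c : GQ} (h : IsConj c) : kq (-1) c = 1 := by
  obtain ⟨f, hf⟩ := h
  refine (Kc.z2 _).resolve_left fun e => ?_
  have e0 := (Kc.kq_zero (Kc.rt_sq _) c).1 e
  have e1 := Complex.mul_conj (f (rt (-1)))
  rw [← hf, e0, ← map_mul, ← pow_two, Kc.rt_sq, map_neg, map_one] at e1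
  have e2 := congrArg Complex.re e1
  have e3 := Complex.normSq_nonneg (f (rt (-1)))
  simp only [Complex.neg_re, Complex.one_re, Complex.ofReal_re] at e2
  linarith

/-- a tame generator moves the square roots of the prime -/
theorem kq_tm {l : ℕ} {P : Ideal (𝓞 Qb)} (hP : Ov l P) {τ f : GQ} (tm : Tm l P τ f) :
    kq (l : Qb) τ = 1 := by
  let κ : GQ →* Multiplicative (ZMod 2) :=
    { toFun := fun g => Multiplicative.ofAdd (kq (l : Qb) g)
      map_one' := by simp [kq]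
      map_mul' := fun g h => by rw [kq_add (map_natCast g l) (map_natCast h l)]; rfl }
  obtain ⟨N, hN⟩ := tm.tame _ κ ((Kc.kq_lc (l : Qb)).isOpen_fiber 0)
  obtain ⟨τ', h'⟩ := Tg.ex_gn' hP
  obtain ⟨a, b⟩ := (Tg.gn_iff hP).1 h'
  obtain ⟨n, p, pN, rfl⟩ := hN.cyc τ' a
  obtain ⟨m, hm, e⟩ := hN.odd p pN
  have e' : m • kq (l : Qb) p = 0 := congrArg Multiplicative.toAdd e
  rw [nsmul_eq_mul, (ZMod.natCast_eq_one_iff_odd).2 hm, one_mul] at e'
  have kp : kq (l : Qb) (τ ^ n) = n • kq (l : Qb) τ := congrArg Multiplicative.toAdd (map_pow κ τ n)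
  rw [kq_add (map_natCast _ l) (map_natCast _ l), e', add_zero, kp] at b
  refine (Kc.z2 _).resolve_left fun c => ?_
  rw [c, smul_zero] at b
  exact zero_ne_one b

theorem gn_tm {l : ℕ} {P : Ideal (𝓞 Qb)} (hP : Ov l P) {τ f : GQ} (tm : Tm l P τ f) : Gn l P τ :=
  (Tg.gn_iff hP).2 ⟨tm.tau, kq_tm hP tm⟩

/-- a basis: `γ` and the dual characters `χ` -/
structure Db (T : Finset ℕ) {ι : Type} [DecidableEq ι] (γ : ι → GQ) (χ : ι → GQ → ZMod 2) :
    Prop where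
  mem : ∀ i, χ i ∈ Qc T
  dual : ∀ i j, χ i (γ j) = if i = j then 1 else 0
  gen : ∀ x ∈ Qc T, (∀ i, x (γ i) = 0) → x = 0

/-- **minimal generators**: they contain the tame generators, the conjugation, and one more -/
theorem ex_db {T C : Finset ℕ} (h2 : 2 ∈ T) (hC : C ⊆ T) (c2 : 2 ∉ C) (P : ℕ → Ideal (𝓞 Qb))
    (τ : ℕ → GQ) (hP : ∀ l ∈ C, Ov l (P l)) (hτ : ∀ l ∈ C, Gn l (P l) (τ l)) {c : GQ}
    (hc : IsConj c) :
    ∃ (ι : Type) (_ : Fintype ι) (_ : DecidableEq ι) (γ : ι → GQ) (χ : ι → GQ → ZMod 2)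
      (i2 ic : ι) (iτ : C → ι), Db T γ χ ∧ γ ic = c ∧ (∀ l, γ (iτ l) = τ l) ∧
      Function.Injective (Sum.elim ![i2, ic] iτ) := by
  classical
  haveI := qc_fin T
  have n2 : ∀ l : C, (l : ℕ) ≠ 2 := fun l e => c2 (e ▸ l.2)
  obtain ⟨ι, j1, j2, e, γ, χ, a1, a2, a3, a4, a5⟩ := ext (κ := Option C) (Qc T)
    (fun o => o.elim c fun l => τ l) (fun o => o.elim (kq (-1)) fun l => kq ((l : ℕ) : Qb)) (by
      rintro (_ | l)
      exacts [km_mem h2, kq_mem h2 (hP l l.2).1 (hC l.2)]) (by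
      rintro (_ | l) (_ | l')
      · exact km_c hc
      · exact P022G.Obs.Sc2.m1 (hP _ l'.2) (n2 l') (hτ _ l'.2).1
      · exact kq_c hc _ (hP l l.2).1.ne_zero
      · by_cases h : l = l'
        · subst h
          rw [if_pos rfl]
          exact ((Tg.gn_iff (hP _ l.2)).1 (hτ _ l.2)).2
        · rw [if_neg fun k => h (Option.some_injective _ k)]
          exact kq_ine (hP _ l'.2) (n2 l') (hP l l.2).1 (fun k => h (Subtype.ext k.symm))
            (hτ _ l'.2).1)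
  have ns : ∃ i, i ∉ Set.range e := by
    by_contra hn
    have hs : ∀ i, i ∈ Set.range e := fun i => by_contra fun k => hn ⟨i, k⟩
    have z := a5 _ (kq_mem h2 Nat.prime_two h2) fun i => by
      obtain ⟨k, rfl⟩ := hs i
      rw [a2]
      rcases k with _ | l
      · exact kq_c hc 2 two_ne_zero
      · exact kq_ine (hP _ l.2) (n2 l) Nat.prime_two (n2 l) (hτ _ l.2).1
    have o : Ov 2 (P022D.Loc2.PP 2) :=
      ⟨Nat.prime_two, P022D.Loc2.PP_prime 2, P022D.Loc2.p_mem_PP 2⟩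
    obtain ⟨t, ht⟩ := Tg.ex_gn' o
    have := ((Tg.gn_iff o).1 ht).2
    rw [z] at this
    exact zero_ne_one this
  obtain ⟨i2, hi⟩ := ns
  refine ⟨ι, j1, j2, γ, χ, i2, e none, fun l => e (some l), ⟨a3, a4, a5⟩, a2 none,
    fun l => a2 (some l), ?_⟩
  rintro (x | x) (y | y) h
  · fin_cases x <;> fin_cases y
    · rfl
    · exact absurd ⟨_, h.symm⟩ hi
    · exact absurd ⟨_, h⟩ hi
    · rfl
  · fin_cases x
    · exact absurd ⟨_, h.symm⟩ hi
    · exact absurd (a1 h) (by simp)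
  · fin_cases y
    · exact absurd ⟨_, h⟩ hi
    · exact absurd (a1 h) (by simp)
  · rw [Option.some_injective _ (a1 h)]

/-- additive maps to elementary `2`-groups -/
theorem van {T : Finset ℕ} {ι : Type} {γ : ι → GQ}
    (hγ : ∀ x ∈ Qc T, (∀ i, x (γ i) = 0) → x = 0) {M : Type} [AddCommGroup M]
    (h2 : ∀ x : M, 2 • x = 0) (c : GQ → M) (ha : ∀ g h, c (g * h) = c g + c h) (ho : Op c)
    (hu : Ur T c) (h0 : ∀ i, c (γ i) = 0) : c = 0 :=
  funext fun g => _root_.P022G.Sel.Finr.sep h2 fun l => congrFun (hγ (fun g => l (c g))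
    ⟨fun g h => (congrArg l (ha g h)).trans (map_add l _ _), ho.imp fun U hU => ⟨hU.1, fun σ hσ =>
      (congrArg l (hU.2 σ hσ)).trans (map_zero l)⟩, fun q hq P hP g hg =>
      (congrArg l (hu q hq P hP g hg)).trans (map_zero l)⟩
    fun i => (congrArg l (h0 i)).trans (map_zero l)) g

/-- **generation** of the finite `2`-groups of level `Q` -/
theorem gen2 {T : Finset ℕ} (h2 : 2 ∈ T) {ι : Type} {γ : ι → GQ}
    (hγ : ∀ x ∈ Qc T, (∀ i, x (γ i) = 0) → x = 0) (Q : Finset ℕ) {ι' : Type} (γ' : ι' → GQ)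
    (h1 : ∀ i, ∃ k, γ' k = γ i) (hτ : ∀ q ∈ Q, q ∉ T → ∃ i P, Ov q P ∧ Gn q P (γ' i))
    (Γ : Type) [Group Γ] [Finite Γ] (f : GQ →* Γ) (ho : IsOpen {g : GQ | f g = 1})
    (htwo : ∀ g, ∃ k : ℕ, f g ^ 2 ^ k = 1)
    (hun : ∀ l : ℕ, l.Prime → l ∉ T → l ∉ Q → ∀ P : Ideal (𝓞 Qb), P.IsPrime → (l : 𝓞 Qb) ∈ P →
      ∀ s, Inert P s → f s = 1) (g : GQ) :
    f g ∈ Subgroup.closure (Set.range fun i => f (γ' i)) := by
  classical
  let H : Subgroup Γ := Subgroup.closure (Set.range fun i => f (γ' i))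
  have hH : ∀ i, f (γ' i) ∈ H := fun i => Subgroup.subset_closure ⟨i, rfl⟩
  let N : Subgroup Γ := f.range
  have hN : IsPGroup 2 N := by
    rintro ⟨_, g, rfl⟩
    obtain ⟨k, hk⟩ := htwo g
    exact ⟨k, Subtype.ext hk⟩
  suffices key : N ≤ H from key ⟨g, rfl⟩
  by_contra hn
  have hne : H.subgroupOf N ≠ ⊤ := fun e => hn (Subgroup.subgroupOf_eq_top.1 e)
  obtain ⟨M, hM, hHM⟩ := (eq_top_or_exists_le_coatom (H.subgroupOf N)).resolve_left hne
  have hi : M.index = 2 := P022D.L2.RelP.idx hN hM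
  let χ : GQ → ZMod 2 := fun g => if (⟨f g, g, rfl⟩ : N) ∈ M then 0 else 1
  have χ0 : ∀ g, χ g = 0 ↔ (⟨f g, g, rfl⟩ : N) ∈ M := fun g => by
    simp only [χ]
    split_ifs with k
    · exact iff_of_true rfl k
    · exact iff_of_false (by decide) k
  have χa : ∀ g h, χ (g * h) = χ g + χ h := fun g h => by
    have e : (⟨f (g * h), g * h, rfl⟩ : N) = ⟨f g, g, rfl⟩ * ⟨f h, h, rfl⟩ :=
      Subtype.ext (map_mul f g h)
    have e2 := Subgroup.mul_mem_iff_of_index_two hi (a := (⟨f g, g, rfl⟩ : N)) (b := ⟨f h, h, rfl⟩)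
    rw [← e, ← χ0, ← χ0, ← χ0] at e2
    exact Kc.z2_add e2
  have χH : ∀ g, f g ∈ H → χ g = 0 := fun g h => (χ0 g).2 (hHM h)
  have co : Op χ := ⟨f.ker, ho, fun g hg => χH g (by rw [MonoidHom.mem_ker.1 hg]; exact H.one_mem)⟩
  have cu : Ur T χ := fun l hl P hP s hs => by
    by_cases hq : l ∈ Q
    · obtain ⟨i, P₀, h1, h3⟩ := hτ l hq hl
      obtain ⟨t, rfl⟩ := Tg.trans h1 hP
      obtain ⟨n, e, -⟩ := _root_.P022G.Sel.H9.mult (by decide) h1 (fun e => hl (e ▸ h2)) h3 (a := χ)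
        (fun s _ t _ => χa s t) (co.imp fun V hV => ⟨hV.1, fun σ m _ => hV.2 σ m⟩)
        (Tg.inert_conj hs)
      rw [χH _ (hH i), smul_zero, χa, χa, add_right_comm, ← χa, inv_mul_cancel,
        χH 1 (by rw [map_one]; exact H.one_mem), zero_add] at e
      exact e
    · exact χH s (by rw [hun l hP.1 hl hq P hP.2.1 hP.2.2 s hs]; exact H.one_mem)
  have z := hγ χ ⟨χa, co, cu⟩ fun i => (h1 i).elim fun k e => e ▸ χH _ (hH k)
  refine hM.1 (eq_top_iff.2 ?_)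
  rintro ⟨_, g, rfl⟩ -
  exact (χ0 g).1 (congrFun z g)

end Vale.Agent.P022S.Koch
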