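import Vale.Agent.P022G.Pres.Uni
import Vale.Agent.P022G.Limk
import Vale.Agent.P022D.L2.Rel

/-!
# P022S: universal matrices as limits of words in the generators
-/

set_option linter.all false

noncomputable section

namespace Vale.Agent.P022S.KochH9

open NumberField IsLocalRing Filter
open Vale.Agent.P022 Vale.Agent.P022G.Pres
open Vale.Agent.P027M.S (Inert mx)
open Vale.Agent.P022D.Sel (M2)
open Vale.Agent.P022D.PA (Cv Base)
open Vale.Agent.P022D.R (ker_set)

theorem pw {A : Type} [CommRing A] (I : Ideal A) (h2 : (2 : A) ∈ I) {M : M2 A}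
    (h : ∀ a b, (M - 1) a b ∈ I) (n : ℕ) :
    ∀ a b, (M ^ 2 ^ n - 1 : M2 A) a b ∈ I ^ (n + 1) := by
  induction n with
  | zero => simpa using h
  | succ n ih =>
    intro a b
    have e : M ^ 2 ^ (n + 1) - 1 =
        (M ^ 2 ^ n - 1) * (M ^ 2 ^ n - 1) + (2 : A) • (M ^ 2 ^ n - 1) := by
      rw [pow_succ, pow_mul, two_smul]
      noncomm_ring
    rw [e, Matrix.add_apply, Matrix.smul_apply, smul_eq_mul, Matrix.mul_apply, pow_succ' I]
    exact Ideal.add_mem _ (Ideal.sum_mem _ fun k _ => Ideal.mul_mem_mul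
      (Ideal.pow_le_self n.succ_ne_zero (ih a k)) (ih k b)) (Ideal.mul_mem_mul h2 (ih a b))

section cv
variable {P : Type} [CommRing P] [IsLocalRing P] {U : Filter ℕ}

theorem cv_const (a : P) : Cv U (fun _ => a) a := fun j =>
  Eventually.of_forall fun n => by simp

theorem cv_add {z w : ℕ → P} {a b : P} (h : Cv U z a) (k : Cv U w b) :
    Cv U (fun n => z n + w n) (a + b) := fun j => ((h j).and (k j)).mono fun n e => by
  rw [add_sub_add_comm]
  exact Ideal.add_mem _ e.1 e.2

theorem cv_sub {z w : ℕ → P} {a b : P} (h : Cv U z a) (k : Cv U w b) :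
    Cv U (fun n => z n - w n) (a - b) := fun j => ((h j).and (k j)).mono fun n e => by
  rw [sub_sub_sub_comm]
  exact Ideal.sub_mem _ e.1 e.2

theorem cv_mul {z w : ℕ → P} {a b : P} (h : Cv U z a) (k : Cv U w b) :
    Cv U (fun n => z n * w n) (a * b) := fun j => ((h j).and (k j)).mono fun n e => by
  rw [show z n * w n - a * b = (z n - a) * w n + a * (w n - b) by ring]
  exact Ideal.add_mem _ (Ideal.mul_mem_right _ _ e.1) (Ideal.mul_mem_left _ _ e.2)

/-- convergence of matrices -/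
def Cm (U : Filter ℕ) (z : ℕ → M2 P) (M : M2 P) : Prop := ∀ a b, Cv U (fun n => z n a b) (M a b)

theorem Cm.mul {z w : ℕ → M2 P} {M N : M2 P} (h : Cm U z M) (k : Cm U w N) :
    Cm U (fun n => z n * w n) (M * N) := fun a b => by
  simp only [Matrix.mul_apply, Fin.sum_univ_two]
  exact cv_add (cv_mul (h a 0) (k 0 b)) (cv_mul (h a 1) (k 1 b))

theorem Cm.tr {z : ℕ → M2 P} {M : M2 P} (h : Cm U z M) :
    Cv U (fun n => (z n).trace) M.trace := by
  simp only [Matrix.trace_fin_two]
  exact cv_add (h 0 0) (h 1 1)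

theorem Cm.det {z : ℕ → M2 P} {M : M2 P} (h : Cm U z M) : Cv U (fun n => (z n).det) M.det := by
  simp only [Matrix.det_fin_two]
  exact cv_sub (cv_mul (h 0 0) (h 1 1)) (cv_mul (h 0 1) (h 1 0))

theorem cv_uniq [IsNoetherianRing P] [U.NeBot] {z : ℕ → P} {a b : P} (h : Cv U z a)
    (k : Cv U z b) : a = b := by
  rw [← sub_eq_zero, ← Ideal.mem_bot]
  refine P022D.PA.mem_of_sup ⊥ _ fun j => ?_
  obtain ⟨n, e1, e2⟩ := ((h j).and (k j)).exists
  have := Ideal.sub_mem _ e2 e1
  rw [sub_sub_sub_cancel_left] at this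
  exact Ideal.mem_sup_right this

/-- the image of a local homomorphism is closed -/
theorem cv_range [IsNoetherianRing P] {A : Type} [CommRing A] [Base A] (φ : A →+* P)
    (hφ : ∀ x ∈ maximalIdeal A, φ x ∈ maximalIdeal P) (U : Ultrafilter ℕ) {z : ℕ → P} {c : P}
    (h : Cv (U : Filter ℕ) z c) (hz : ∀ n, z n ∈ φ.range) : c ∈ φ.range := by
  choose a ha using hz
  obtain ⟨b, hb⟩ := P022D.PA.lim A U a
  refine ⟨b, cv_uniq (U := (U : Filter ℕ)) (fun j => (hb j).mono fun n e => ?_) h⟩
  rw [← ha, ← map_sub]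
  exact _root_.P022G.Lk.map_pow_le φ hφ j (Ideal.mem_map_of_mem φ e)

end cv

variable {O F ι : Type} [CommRing O] [IsLocalRing O] [Field F] [CharP F 2] {S : Dt O F ι}

/-- every value is a word in the generators -/
theorem word (hS : S.Ok) (h1 : ∀ g, S.rb g = 1) {A : Type} [CommRing A] [Finite A]
    {φ : PP O ι →+* A} {ρ : GQ →* M2 A} (h : Adm S φ ρ) {k : ℕ}
    (hk : maximalIdeal (PP O ι) ^ k ≤ RingHom.ker φ) (g : GQ) :
    ∃ w : List ι, ρ g = ((w.map S.Z).prod).map φ := by
  classical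
  have hx : ∀ g, mx S.rb g = 1 := fun g => congrArg Units.val (h1 g)
  let I : Ideal A := (maximalIdeal (PP O ι)).map φ
  have i2 : (2 : A) ∈ I := by
    rw [← map_ofNat φ 2]
    refine Ideal.mem_map_of_mem _ (hS.max.1 ?_)
    rw [map_ofNat]
    exact CharTwo.two_eq_zero
  have i0 : I ^ (k + 1) = ⊥ := by
    rw [← Ideal.map_pow, eq_bot_iff, Ideal.map_le_iff_le_comap]
    exact (Ideal.pow_le_pow_right k.le_succ).trans hk
  have i1 : ∀ g, ρ g ^ 2 ^ k = 1 := fun g => by
    rw [← sub_eq_zero]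
    ext a b
    have := pw I i2 (M := ρ g) (fun a b => by
      obtain ⟨p, e1, e2⟩ := h.res g a b
      have e : (ρ g - 1) a b = φ (p - (1 : M2 (PP O ι)) a b) := by
        rw [map_sub, e1, Matrix.sub_apply, Matrix.one_apply, Matrix.one_apply, apply_ite φ,
          map_one, map_zero]
      rw [e]
      refine Ideal.mem_map_of_mem _ (hS.max.1 ?_)
      rw [map_sub, e2, hx, Matrix.one_apply, Matrix.one_apply, apply_ite S.π0, map_one, map_zero,
        sub_self]) k a b
    rwa [i0, Ideal.mem_bot] at this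
  let f := ρ.toHomUnits.rangeRestrict
  have hN : IsPGroup 2 ρ.toHomUnits.range := by
    rintro ⟨_, g, rfl⟩
    exact ⟨k, Subtype.ext (Units.ext (by simpa using i1 g))⟩
  have f1 : ∀ g, ρ g = 1 → f g = 1 := fun g e => Subtype.ext (Units.ext e)
  have key : Subgroup.closure (Set.range fun i => f (S.gam i)) = ⊤ := by
    by_contra hne
    obtain ⟨M, hM, hHM⟩ := (eq_top_or_exists_le_coatom _).resolve_left hne
    have hi : M.index = 2 := P022D.L2.RelP.idx hN hM
    let c : GQ → M2 F := fun g => if f g ∈ M then 0 else 1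
    have c0 : ∀ g, f g ∈ M → c g = 0 := fun g e => if_pos e
    have c1 : ∀ g, ρ g = 1 → c g = 0 := fun g e => c0 g (by rw [f1 g e]; exact M.one_mem)
    have e := hS.gen c ⟨fun g _ k _ => by
        rw [hx, hx, one_mul, mul_one]
        have e2 := Subgroup.mul_mem_iff_of_index_two hi (a := f g) (b := f k)
        have t : (1 : M2 F) + 1 = 0 := by
          rw [← two_smul F, CharTwo.two_eq_zero (R := F), zero_smul]
        by_cases a : f g ∈ M <;> by_cases b : f k ∈ M <;> simp [c, e2, a, b, t],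
      fun g hg => absurd trivial hg,
      ⟨ρ.toHomUnits.ker, ((ker_set ρ).symm ▸ h.opn : IsOpen (ρ.toHomUnits.ker : Set GQ)),
        fun g hg => c1 g (Units.ext_iff.1 hg)⟩,
      fun l hl P hP g hg => c1 g (h.unr l hl P hP g hg)⟩
      fun i => c0 _ (hHM (Subgroup.subset_closure ⟨i, rfl⟩))
    refine hM.1 (eq_top_iff.2 ?_)
    rintro ⟨_, g, rfl⟩ -
    by_contra a
    have := congrFun e g
    exact one_ne_zero ((if_neg a).symm.trans this)
  have hm : f g ∈ Submonoid.closure (Set.range fun i => f (S.gam i)) := by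
    rw [← Subgroup.closure_toSubmonoid_of_finite, key]
    trivial
  suffices H : ∀ x ∈ Submonoid.closure (Set.range fun i => f (S.gam i)),
      ∃ w : List ι, ((x : (M2 A)ˣ) : M2 A) = ((w.map S.Z).prod).map φ from H _ hm
  intro x hx
  induction hx using Submonoid.closure_induction with
  | mem x hx =>
    obtain ⟨i, rfl⟩ := hx
    exact ⟨[i], by rw [List.map_singleton, List.prod_singleton]; exact h.gen i⟩
  | one => exact ⟨[], (Matrix.map_one _ φ.map_zero φ.map_one).symm⟩
  | mul x y _ _ a b =>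
    obtain ⟨u, a⟩ := a
    obtain ⟨v, b⟩ := b
    refine ⟨u ++ v, ?_⟩
    rw [List.map_append, List.prod_append, Matrix.map_mul, ← a, ← b]
    rfl

/-- **universal matrices** -/
theorem lim [IsNoetherianRing O] [IsAdicComplete (maximalIdeal O) O] [Finite F] [Fintype ι]
    (hS : S.Ok) (h1 : ∀ g, S.rb g = 1) (hi : Function.Injective S.gam) :
    ∃ Φ : GQ → M2 (PP O ι),
      (∀ (B : Type) [CommRing B] (φ : PP O ι →+* B) (ρ : GQ →* M2 B),
        (∃ k : ℕ, maximalIdeal (PP O ι) ^ k ≤ RingHom.ker φ) → Adm S φ ρ →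
        ∀ g, ρ g = (Φ g).map φ) ∧ (∀ i, Φ (S.gam i) = S.Z i) ∧ Φ 1 ∈ Set.range S.Z ∪ {1} ∧
      ∀ (A : Type) [CommRing A] [Base A] (φA : A →+* PP O ι),
        (∀ x ∈ maximalIdeal A, φA x ∈ maximalIdeal (PP O ι)) →
        ((∀ w : List ι, ((w.map S.Z).prod).trace ∈ φA.range) →
          ∀ l : List GQ, ((l.map Φ).prod).trace ∈ φA.range) ∧
        ((∀ i, (S.Z i).det ∈ φA.range) → ∀ g, (Φ g).det ∈ φA.range) := by
  classical
  haveI : Finite (PP O ι ⧸ maximalIdeal (PP O ι)) := by
    have := fin_pow hS 1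
    rwa [pow_one] at this
  haveI : Base (PP O ι) :=
    { cpl := P022D.L2b.isAdicCompleteV inferInstance, fin := this }
  have hU := uni O F ι S hS
  choose ρ hρ using fun k => (hU.1 k).2
  have hw : ∀ k g, ∃ w : List ι, ρ k g = ((w.map S.Z).prod).map (Ideal.Quotient.mk _) ∧
      (∀ i, g = S.gam i → w = [i]) ∧ (g = 1 → (∀ i, g ≠ S.gam i) → w = []) := fun k g => by
    by_cases e : ∃ i, g = S.gam i
    · obtain ⟨i, rfl⟩ := e
      exact ⟨[i], by simpa using (hρ k).gen i, fun j e => by rw [hi e], fun _ a => absurd rfl (a i)⟩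
    by_cases e1 : g = 1
    · subst e1
      exact ⟨[], by rw [map_one]; exact (Matrix.map_one _ (map_zero _) (map_one _)).symm,
        fun i a => absurd ⟨i, a⟩ e, fun _ _ => rfl⟩
    haveI := fin_pow hS k
    haveI : Finite (PP O ι ⧸ (Jac S ⊔ maximalIdeal (PP O ι) ^ k)) :=
      Finite.of_surjective _ (Ideal.Quotient.factor_surjective
        (le_sup_right : maximalIdeal (PP O ι) ^ k ≤ Jac S ⊔ maximalIdeal (PP O ι) ^ k))
    obtain ⟨w, a⟩ := word hS h1 (hρ k) (k := k) (by rw [Ideal.mk_ker]; exact le_sup_right) g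
    exact ⟨w, a, fun i b => absurd ⟨i, b⟩ e, fun b => absurd b e1⟩
  choose w hw hw1 hw0 using hw
  let U : Ultrafilter ℕ := Ultrafilter.of atTop
  have hle : (U : Filter ℕ) ≤ atTop := Ultrafilter.of_le _
  choose Φ hΦ using fun g a b => P022D.PA.lim (PP O ι) U fun n => ((w n g).map S.Z).prod a b
  have hZ : ∀ i, Matrix.of (Φ (S.gam i)) = S.Z i := fun i => Matrix.ext fun a b =>
    cv_uniq (hΦ _ a b) (by
      simp only [hw1 _ _ i rfl, List.map_singleton, List.prod_singleton]
      exact cv_const _)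
  have hl : ∀ l : List GQ, Cm (U : Filter ℕ) (fun n => ((l.flatMap (w n)).map S.Z).prod)
      (l.map fun g => Matrix.of (Φ g)).prod := fun l => by
    induction l with
    | nil => exact fun a b => cv_const _
    | cons g l ih =>
      simp only [List.flatMap_cons, List.map_append, List.prod_append, List.map_cons,
        List.prod_cons]
      exact Cm.mul (z := fun n => ((w n g).map S.Z).prod) (hΦ g) ih
  refine ⟨fun g => Matrix.of (Φ g), fun B _ φ σ hk h g => ?_, hZ, ?_, fun A _ _ φA hA =>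
    ⟨fun ht l => cv_range φA hA U (hl l).tr fun n => ht _, fun hd g =>
      cv_range φA hA U (Cm.det (z := fun n => ((w n g).map S.Z).prod) (hΦ g)) fun n => ?_⟩⟩
  · obtain ⟨k, hk⟩ := hk
    have hJ := univ ⟨k, hk⟩ h
    ext a b
    obtain ⟨n, e1, e2⟩ := ((hΦ g a b k).and (hle (eventually_ge_atTop k))).exists
    have hn : Jac S ⊔ maximalIdeal (PP O ι) ^ n ≤ RingHom.ker φ :=
      sup_le hJ ((Ideal.pow_le_pow_right e2).trans hk)
    have e := uniq hS ⟨k, hk⟩ h ((hρ n).map (Ideal.Quotient.lift _ φ fun x hx => hn hx))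
    rw [e, pm_apply, hw]
    have := hk e1
    rw [RingHom.mem_ker, map_sub, sub_eq_zero] at this
    exact this
  · by_cases e : ∃ i, 1 = S.gam i
    · obtain ⟨i, e⟩ := e
      exact Or.inl ⟨i, by rw [e]; exact (hZ i).symm⟩
    · refine Or.inr (Matrix.ext fun a b => cv_uniq (hΦ 1 a b) ?_)
      simp only [hw0 _ 1 rfl fun i k => e ⟨i, k⟩, List.map_nil, List.prod_nil]
      exact cv_const _
  · induction w n g with
    | nil => exact ⟨1, by simp⟩
    | cons i v ih =>
      rw [List.map_cons, List.prod_cons, Matrix.det_mul]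
      exact φA.range.mul_mem (hd i) ih

end Vale.Agent.P022S.KochH9
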